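import Mathlib

set_option linter.unusedSectionVars false
set_option linter.unusedSimpArgs false

namespace Vale.Agent.Lib.P123

open ContinuousLinearMap

variable {H : Type*} [NormedAddCommGroup H] [InnerProductSpace ℂ H] [CompleteSpace H]

theorem ext2 {x y : WithLp 2 (H × H)} (h1 : x.fst = y.fst) (h2 : x.snd = y.snd) : x = y :=
  WithLp.ofLp_injective 2 (Prod.ext h1 h2)

/-- block operator on the Hilbert sum of two copies of `H` -/
noncomputable def block (a b c d : H →L[ℂ] H) : WithLp 2 (H × H) →L[ℂ] WithLp 2 (H × H) :=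
  ((WithLp.prodContinuousLinearEquiv 2 ℂ H H).symm : H × H →L[ℂ] WithLp 2 (H × H)) ∘L
    ((a ∘L ContinuousLinearMap.fst ℂ H H + b ∘L ContinuousLinearMap.snd ℂ H H).prod
      (c ∘L ContinuousLinearMap.fst ℂ H H + d ∘L ContinuousLinearMap.snd ℂ H H)) ∘L
    ((WithLp.prodContinuousLinearEquiv 2 ℂ H H) : WithLp 2 (H × H) →L[ℂ] H × H)

theorem block_fst (a b c d : H →L[ℂ] H) (x : WithLp 2 (H × H)) :
    (block a b c d x).fst = a x.fst + b x.snd := rfl

theorem block_snd (a b c d : H →L[ℂ] H) (x : WithLp 2 (H × H)) :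
    (block a b c d x).snd = c x.fst + d x.snd := rfl

theorem block_mul (a b c d a' b' c' d' : H →L[ℂ] H) :
    block a b c d * block a' b' c' d' =
      block (a * a' + b * c') (a * b' + b * d') (c * a' + d * c') (c * b' + d * d') := by
  ext x
  apply ext2
  · simp only [mul_apply_eq_comp, block_fst, block_snd, map_add, add_apply]
    abel
  · simp only [mul_apply_eq_comp, block_fst, block_snd, map_add, add_apply]
    abel

theorem block_one : block (1 : H →L[ℂ] H) 0 0 1 = 1 := by
  ext x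
  apply ext2 <;> simp [block_fst, block_snd]

theorem block_add (a b c d a' b' c' d' : H →L[ℂ] H) :
    block a b c d + block a' b' c' d' = block (a + a') (b + b') (c + c') (d + d') := by
  ext x
  apply ext2
  · simp only [add_apply, block_fst, WithLp.add_fst]
    abel
  · simp only [add_apply, block_snd, WithLp.add_snd]
    abel

theorem block_smul (t : ℂ) (a b c d : H →L[ℂ] H) :
    t • block a b c d = block (t • a) (t • b) (t • c) (t • d) := by
  ext x
  apply ext2
  · simp [block_fst, WithLp.smul_fst]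
  · simp [block_snd, WithLp.smul_snd]

theorem block_star (a b c d : H →L[ℂ] H) :
    star (block a b c d) = block (star a) (star c) (star b) (star d) := by
  rw [ContinuousLinearMap.star_eq_adjoint]
  symm
  rw [ContinuousLinearMap.eq_adjoint_iff]
  intro x y
  simp only [WithLp.prod_inner_apply]
  change inner ℂ (block (star a) (star c) (star b) (star d) x).fst y.fst +
    inner ℂ (block (star a) (star c) (star b) (star d) x).snd y.snd =
    inner ℂ x.fst (block a b c d y).fst + inner ℂ x.snd (block a b c d y).snd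
  simp only [block_fst, block_snd, inner_add_left, inner_add_right,
    ContinuousLinearMap.star_eq_adjoint, ContinuousLinearMap.adjoint_inner_left]
  ring

section isometry

variable (V : H →L[ℂ] H) (hV : star V * V = 1)

include hV in
theorem norm_V_apply (x : H) : ‖V x‖ = ‖x‖ := by
  have := (ContinuousLinearMap.norm_map_iff_adjoint_comp_self V).mpr
    (by rw [← ContinuousLinearMap.star_eq_adjoint]; exact hV)
  exact this x

include hV in
theorem norm_V_le : ‖V‖ ≤ 1 :=
  ContinuousLinearMap.opNorm_le_bound _ zero_le_one (fun x => by rw [norm_V_apply V hV, one_mul])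

include hV in
theorem norm_starV_le : ‖star V‖ ≤ 1 := by
  rw [norm_star]; exact norm_V_le V hV

include hV in
theorem starV_Q : star V * (1 - V * star V) = 0 := by
  rw [mul_sub, mul_one, ← mul_assoc, hV, one_mul, sub_self]

include hV in
theorem Q_V : (1 - V * star V) * V = 0 := by
  rw [sub_mul, one_mul, mul_assoc, hV, mul_one, sub_self]

include hV in
theorem Q_Q : (1 - V * star V) * (1 - V * star V) = 1 - V * star V := by
  rw [mul_sub, mul_one, ← mul_assoc, Q_V V hV, zero_mul, sub_zero]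

theorem Q_star : star (1 - V * star V) = 1 - V * star V := by
  simp

include hV in
/-- Pythagoras for the decomposition `y = Q y + V V* y`. -/
theorem norm_sq_decomp (y : H) :
    ‖y‖ ^ 2 = ‖(1 - V * star V) y‖ ^ 2 + ‖star V y‖ ^ 2 := by
  have h1 : y = (1 - V * star V) y + V (star V y) := by
    simp [sub_apply, mul_apply_eq_comp]
  have h2 : inner ℂ ((1 - V * star V) y) (V (star V y)) = 0 := by
    have : inner ℂ ((1 - V * star V) y) (V (star V y)) =
        inner ℂ ((star V * (1 - V * star V)) y) (star V y) := by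
      rw [mul_apply_eq_comp, ContinuousLinearMap.star_eq_adjoint,
        ContinuousLinearMap.adjoint_inner_left]
    rw [this, starV_Q V hV]
    simp
  have h3 := norm_add_sq_eq_norm_sq_add_norm_sq_of_inner_eq_zero _ _ h2
  rw [← h1, norm_V_apply V hV] at h3
  rw [sq, sq, sq]
  exact h3

include hV in
/-- existence of the solution of `Γ = Q + α V Γ V*`. -/
theorem exists_Gamma (α : ℂ) (hα : ‖α‖ < 1) :
    ∃ Γ : H →L[ℂ] H, Γ = (1 - V * star V) + α • (V * Γ * star V) := by
  let f : (H →L[ℂ] H) → (H →L[ℂ] H) := fun G => (1 - V * star V) + α • (V * G * star V)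
  have hf : ContractingWith ‖α‖₊ f := by
    refine ⟨by exact_mod_cast hα, ?_⟩
    apply LipschitzWith.of_dist_le_mul
    intro G G'
    simp only [f, dist_eq_norm, coe_nnnorm]
    have : (1 - V * star V + α • (V * G * star V)) - (1 - V * star V + α • (V * G' * star V)) =
        α • (V * (G - G') * star V) := by
      rw [mul_sub, sub_mul, smul_sub]; abel
    rw [this, norm_smul]
    apply mul_le_mul_of_nonneg_left _ (norm_nonneg _)
    calc ‖V * (G - G') * star V‖ ≤ ‖V * (G - G')‖ * ‖star V‖ := norm_mul_le _ _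
      _ ≤ (‖V‖ * ‖G - G'‖) * ‖star V‖ := by gcongr; exact norm_mul_le _ _
      _ ≤ (1 * ‖G - G'‖) * 1 := by
          gcongr
          · exact norm_V_le V hV
          · exact norm_starV_le V hV
      _ = ‖G - G'‖ := by ring
  exact ⟨hf.fixedPoint f, (hf.fixedPoint_isFixedPt).symm⟩

variable {V}

include hV in
theorem Gamma_norm_le {α : ℂ} (hα : ‖α‖ < 1) {Γ : H →L[ℂ] H}
    (hΓ : Γ = (1 - V * star V) + α • (V * Γ * star V)) (x : H) : ‖Γ x‖ ≤ ‖x‖ := by
  have hQΓ : (1 - V * star V) * Γ = 1 - V * star V := by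
    conv_lhs => rw [hΓ]
    rw [mul_add, Q_Q V hV, mul_smul_comm, ← mul_assoc, ← mul_assoc, Q_V V hV]
    simp
  have hVΓ : star V * Γ = α • (Γ * star V) := by
    conv_lhs => rw [hΓ]
    rw [mul_add, starV_Q V hV, mul_smul_comm, ← mul_assoc, ← mul_assoc, hV]
    simp
  have key : ∀ x, ‖Γ x‖ ^ 2 = ‖(1 - V * star V) x‖ ^ 2 + ‖α‖ ^ 2 * ‖Γ (star V x)‖ ^ 2 := by
    intro x
    rw [norm_sq_decomp V hV (Γ x)]
    have h1 : (1 - V * star V) (Γ x) = (1 - V * star V) x := by
      rw [← mul_apply_eq_comp, hQΓ]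
    have h2 : star V (Γ x) = α • Γ (star V x) := by
      rw [← mul_apply_eq_comp, hVΓ]; rfl
    rw [h1, h2, norm_smul, mul_pow]
  set c := ‖Γ‖ with hc
  have hc0 : 0 ≤ c := norm_nonneg _
  have hbound : ∀ x, ‖Γ x‖ ^ 2 ≤ max 1 (‖α‖ ^ 2 * c ^ 2) * ‖x‖ ^ 2 := by
    intro x
    rw [key x, norm_sq_decomp V hV x, mul_add]
    have h3 : ‖Γ (star V x)‖ ≤ c * ‖star V x‖ := Γ.le_opNorm _
    have h4 : ‖Γ (star V x)‖ ^ 2 ≤ c ^ 2 * ‖star V x‖ ^ 2 := by
      rw [← mul_pow]; exact pow_le_pow_left₀ (norm_nonneg _) h3 2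
    apply add_le_add
    · calc ‖(1 - V * star V) x‖ ^ 2 = 1 * ‖(1 - V * star V) x‖ ^ 2 := (one_mul _).symm
        _ ≤ _ := by gcongr; exact le_max_left _ _
    · calc ‖α‖ ^ 2 * ‖Γ (star V x)‖ ^ 2 ≤ ‖α‖ ^ 2 * (c ^ 2 * ‖star V x‖ ^ 2) := by gcongr
        _ = (‖α‖ ^ 2 * c ^ 2) * ‖star V x‖ ^ 2 := by ring
        _ ≤ _ := by gcongr; exact le_max_right _ _
  have hc2 : c ^ 2 ≤ max 1 (‖α‖ ^ 2 * c ^ 2) := by
    have hm : 0 ≤ max 1 (‖α‖ ^ 2 * c ^ 2) := le_trans zero_le_one (le_max_left _ _)
    have : c ≤ Real.sqrt (max 1 (‖α‖ ^ 2 * c ^ 2)) := by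
      apply ContinuousLinearMap.opNorm_le_bound _ (Real.sqrt_nonneg _)
      intro x
      apply abs_le_of_sq_le_sq' _ (by positivity) |>.2
      rw [mul_pow, Real.sq_sqrt hm]
      exact hbound x
    calc c ^ 2 ≤ (Real.sqrt (max 1 (‖α‖ ^ 2 * c ^ 2))) ^ 2 := pow_le_pow_left₀ hc0 this 2
      _ = _ := Real.sq_sqrt hm
  have hc1 : c ≤ 1 := by
    by_contra hcon
    push Not at hcon
    have hα2 : ‖α‖ ^ 2 < 1 := by
      have := norm_nonneg α
      nlinarith
    have hcc : 1 < c ^ 2 := by nlinarith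
    rcases le_max_iff.mp hc2 with h | h
    · linarith
    · nlinarith
  calc ‖Γ x‖ ≤ c * ‖x‖ := Γ.le_opNorm x
    _ ≤ 1 * ‖x‖ := by gcongr
    _ = ‖x‖ := one_mul _

end isometry

open Polynomial in
theorem norm_aeval_unitary_le {𝒜 : Type*} [CStarAlgebra 𝒜] (u : 𝒜) (hu : u ∈ unitary 𝒜)
    (α : ℂ) (P : ℂ[X]) (M : ℝ) (hM0 : 0 ≤ M)
    (hM : ∀ z : ℂ, ‖z‖ = 1 → ‖P.eval (z + α * star z)‖ ≤ M) :
    ‖aeval (u + α • star u) P‖ ≤ M := by
  have hn : IsStarNormal u := ⟨by
    rw [commute_iff_eq, (Unitary.mem_iff.mp hu).1, (Unitary.mem_iff.mp hu).2]⟩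
  have h1 : cfc (fun z : ℂ => z + α * star z) u = u + α • star u := by
    rw [cfc_add (a := u) (f := fun z : ℂ => z) (g := fun z : ℂ => α * star z),
      cfc_id' ℂ u, cfc_const_mul α (fun z : ℂ => star z) u, cfc_star_id (R := ℂ) (a := u)]
  rw [← h1, ← cfc_map_polynomial P (fun z : ℂ => z + α * star z) u]
  apply norm_cfc_le hM0
  intro z hz
  apply hM
  have := spectrum.subset_circle_of_unitary hu hz
  simpa using this

/-- intertwining passes to polynomials -/
theorem aeval_intertwine {K : Type*} [NormedAddCommGroup K] [NormedSpace ℂ K]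
    (N : K →L[ℂ] K) (A : H →L[ℂ] H) (X : H →L[ℂ] K) (h : N ∘L X = X ∘L A) (P : Polynomial ℂ) :
    (Polynomial.aeval N P) ∘L X = X ∘L (Polynomial.aeval A P) := by
  induction P using Polynomial.induction_on with
  | C r =>
    ext x
    simp [Algebra.algebraMap_eq_smul_one]
  | add p q hp hq =>
    simp only [map_add, ContinuousLinearMap.add_comp, ContinuousLinearMap.comp_add, hp, hq]
  | monomial n r ih =>
    have e1 : Polynomial.aeval N (Polynomial.C r * Polynomial.X ^ (n + 1)) =
        Polynomial.aeval N (Polynomial.C r * Polynomial.X ^ n) * N := by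
      rw [pow_succ, ← mul_assoc, map_mul, Polynomial.aeval_X]
    have e2 : Polynomial.aeval A (Polynomial.C r * Polynomial.X ^ (n + 1)) =
        Polynomial.aeval A (Polynomial.C r * Polynomial.X ^ n) * A := by
      rw [pow_succ, ← mul_assoc, map_mul, Polynomial.aeval_X]
    rw [e1, e2]
    change (Polynomial.aeval N (Polynomial.C r * Polynomial.X ^ n) ∘L N) ∘L X =
      X ∘L (Polynomial.aeval A (Polynomial.C r * Polynomial.X ^ n) ∘L A)
    rw [ContinuousLinearMap.comp_assoc, h, ← ContinuousLinearMap.comp_assoc, ih,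
      ContinuousLinearMap.comp_assoc]

/-- the column operator `x ↦ (x, c x)` -/
noncomputable def col (c : H →L[ℂ] H) : H →L[ℂ] WithLp 2 (H × H) :=
  ((WithLp.prodContinuousLinearEquiv 2 ℂ H H).symm : H × H →L[ℂ] WithLp 2 (H × H)) ∘L
    ((ContinuousLinearMap.id ℂ H).prod c)

theorem col_fst (c : H →L[ℂ] H) (x : H) : (col c x).fst = x := rfl
theorem col_snd (c : H →L[ℂ] H) (x : H) : (col c x).snd = c x := rfl

section main
variable {V : H →L[ℂ] H} (hV : star V * V = 1)

include hV in
theorem U_unitary : block V (1 - V * star V) 0 (star V) ∈ unitary (WithLp 2 (H × H) →L[ℂ] WithLp 2 (H × H)) := by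
  rw [Unitary.mem_iff, block_star, Q_star, star_zero, star_star, block_mul, block_mul]
  constructor
  · rw [← block_one]
    congr 1
    · simp [hV]
    · simp [starV_Q V hV]
    · simp [Q_V V hV]
    · rw [Q_Q V hV]; simp
  · rw [← block_one]
    congr 1
    · rw [Q_Q V hV]; simp
    · simp [Q_V V hV]
    · simp [starV_Q V hV]
    · simp [hV]

include hV in
theorem intertwine {α : ℂ} {Γ : H →L[ℂ] H}
    (hΓ : Γ = (1 - V * star V) + α • (V * Γ * star V)) :
    (block V (1 - V * star V) 0 (star V) + α • star (block V (1 - V * star V) 0 (star V))) ∘L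
      col (-(α • (V * Γ))) = col (-(α • (V * Γ))) ∘L (V + α • star V) := by
  have hΓV : Γ * V = α • (V * Γ) := by
    conv_lhs => rw [hΓ]
    rw [add_mul, Q_V V hV, smul_mul_assoc, mul_assoc, hV]
    simp
  rw [block_star, Q_star, star_zero, star_star, block_smul, block_add]
  ext x
  apply ext2
  · simp only [ContinuousLinearMap.comp_apply, block_fst, col_fst, col_snd]
    have : (1 - V * star V + α • (0 : H →L[ℂ] H)) ((-(α • (V * Γ))) x) = 0 := by
      have h0 : (1 - V * star V + α • (0 : H →L[ℂ] H)) * (-(α • (V * Γ))) = 0 := by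
        rw [smul_zero, add_zero, mul_neg, mul_smul_comm, ← mul_assoc, Q_V V hV]
        simp
      rw [← mul_apply_eq_comp, h0]; rfl
    rw [this, add_zero]
  · simp only [ContinuousLinearMap.comp_apply, block_snd, col_fst, col_snd]
    have h1 : (0 + α • (1 - V * star V)) + (star V + α • V) * (-(α • (V * Γ))) =
        (-(α • (V * Γ))) * (V + α • star V) := by
      have e1 : (star V + α • V) * (-(α • (V * Γ))) = -(α • Γ) - (α * α) • (V * V * Γ) := by
        rw [mul_neg, mul_smul_comm, add_mul, ← mul_assoc, hV, one_mul, smul_mul_assoc, smul_add,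
          smul_smul, ← mul_assoc]
        abel
      have e2 : (-(α • (V * Γ))) * (V + α • star V) =
          -((α * α) • (V * V * Γ)) - (α * α) • (V * Γ * star V) := by
        rw [neg_mul, smul_mul_assoc, mul_add, mul_assoc, hΓV, mul_smul_comm, mul_smul_comm,
          smul_add, smul_smul, smul_smul, ← mul_assoc]
        abel
      have e3 : α • Γ = α • (1 - V * star V) + (α * α) • (V * Γ * star V) := by
        conv_lhs => rw [hΓ]
        rw [smul_add, smul_smul]
      rw [e1, e2, e3]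
      abel
    have h2 := congrArg (fun T : H →L[ℂ] H => T x) h1
    simp only [mul_apply_eq_comp, add_apply] at h2
    exact h2

end main

section numrange
variable {V : H →L[ℂ] H} (hV : star V * V = 1)

include hV in
/-- eigenvectors of `V*` for a non-surjective isometry -/
theorem exists_eigen (hns : ¬ Function.Surjective V) (μ : ℂ) (hμ : ‖μ‖ < 1) :
    ∃ x : H, ‖x‖ = 1 ∧ star V x = μ • x := by
  have hQ : (1 - V * star V) ≠ 0 := by
    intro h
    apply hns
    intro y
    refine ⟨star V y, ?_⟩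
    have := congrArg (fun T : H →L[ℂ] H => T y) h
    simp only [sub_apply, mul_apply_eq_comp, one_apply_eq_self,
      zero_apply] at this
    exact (sub_eq_zero.mp this).symm
  obtain ⟨y, hy⟩ : ∃ y, (1 - V * star V) y ≠ 0 := by
    by_contra hcon
    push Not at hcon
    exact hQ (ContinuousLinearMap.ext hcon)
  set ε := (1 - V * star V) y with hε
  have hVε : star V ε = 0 := by
    rw [hε, ← mul_apply_eq_comp, starV_Q V hV]; rfl
  have hnorm : ‖μ • V‖ < 1 := by
    rw [norm_smul]
    calc ‖μ‖ * ‖V‖ ≤ ‖μ‖ * 1 := by gcongr; exact norm_V_le V hV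
      _ < 1 := by rw [mul_one]; exact hμ
  let u := Units.oneSub (μ • V) hnorm
  let x := (↑u⁻¹ : H →L[ℂ] H) ε
  have hx : x - μ • V x = ε := by
    have : (↑u : H →L[ℂ] H) * (↑u⁻¹ : H →L[ℂ] H) = 1 := Units.mul_inv u
    have h2 := congrArg (fun T : H →L[ℂ] H => T ε) this
    simp only [mul_apply_eq_comp, one_apply_eq_self] at h2
    have h3 : (↑u : H →L[ℂ] H) = 1 - μ • V := rfl
    rw [h3] at h2
    simpa [sub_apply] using h2
  have hx0 : x ≠ 0 := by
    intro h0
    rw [h0] at hx
    simp at hx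
    exact hy hx.symm
  have hVx : star V x = μ • x := by
    have h1 : x = ε + μ • V x := by rw [← hx]; abel
    have h2 : star V (V x) = x := by rw [← mul_apply_eq_comp, hV]; rfl
    calc star V x = star V (ε + μ • V x) := by rw [← h1]
      _ = μ • x := by rw [map_add, hVε, map_smul, h2, zero_add]
  refine ⟨(‖x‖⁻¹ : ℂ) • x, ?_, ?_⟩
  · rw [norm_smul]
    simp [hx0]
  · rw [map_smul, hVx, smul_comm]

include hV in
theorem mem_numrange (hns : ¬ Function.Surjective V) (α μ : ℂ) (hμ : ‖μ‖ < 1) :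
    ∃ x : H, ‖x‖ = 1 ∧ inner ℂ x ((V + α • star V) x) = star μ + α * μ := by
  obtain ⟨x, hx1, hx⟩ := exists_eigen hV hns μ hμ
  refine ⟨x, hx1, ?_⟩
  have h1 : inner ℂ x (V x) = star μ := by
    have : inner ℂ x (V x) = inner ℂ (star V x) x := by
      rw [ContinuousLinearMap.star_eq_adjoint, ContinuousLinearMap.adjoint_inner_left]
    rw [this, hx, inner_smul_left, inner_self_eq_norm_sq_to_K, hx1]
    simp
  have h2 : inner ℂ x (star V x) = μ := by
    rw [hx, inner_smul_right, inner_self_eq_norm_sq_to_K, hx1]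
    simp
  rw [add_apply, inner_add_right, smul_apply, inner_smul_right, h1, h2]

end numrange

section final
variable {V : H →L[ℂ] H} (hV : star V * V = 1)

include hV in
theorem boundary_bound (hns : ¬ Function.Surjective V) (α : ℂ) (P : Polynomial ℂ) (M : ℝ)
    (hM : ∀ x : H, ‖x‖ = 1 → ‖P.eval (inner ℂ x ((V + α • star V) x))‖ ≤ M)
    (z : ℂ) (hz : ‖z‖ = 1) : ‖P.eval (z + α * star z)‖ ≤ M := by
  have hcont : Continuous (fun r : ℝ => ‖P.eval ((r : ℂ) * (z + α * star z))‖) := by
    have : Continuous (fun w : ℂ => P.eval w) := P.continuous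
    fun_prop
  have htend : Filter.Tendsto (fun r : ℝ => ‖P.eval ((r : ℂ) * (z + α * star z))‖)
      (nhdsWithin 1 (Set.Iio 1)) (nhds ‖P.eval (z + α * star z)‖) := by
    have := (hcont.tendsto 1).mono_left (nhdsWithin_le_nhds (s := Set.Iio 1))
    simpa using this
  apply le_of_tendsto htend
  have hev : ∀ᶠ r : ℝ in nhdsWithin 1 (Set.Iio 1), r ∈ Set.Ioo (0 : ℝ) 1 :=
    Ioo_mem_nhdsLT (by norm_num)
  filter_upwards [hev] with r hr
  have hμ : ‖(r : ℂ) * star z‖ < 1 := by
    rw [norm_mul, norm_star, hz, mul_one, Complex.norm_real, Real.norm_eq_abs, abs_of_pos hr.1]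
    exact hr.2
  obtain ⟨x, hx1, hx⟩ := mem_numrange hV hns α _ hμ
  have := hM x hx1
  rw [hx] at this
  have e : star ((r : ℂ) * star z) + α * ((r : ℂ) * star z) = (r : ℂ) * (z + α * star z) := by
    rw [star_mul', star_star]
    have : star (r : ℂ) = (r : ℂ) := Complex.conj_ofReal r
    rw [this]; ring
  rwa [e] at this

include hV in
theorem main_bound (hns : ¬ Function.Surjective V) (α : ℂ) (hα : ‖α‖ < 1) (P : Polynomial ℂ)
    (M : ℝ) (hM : ∀ x : H, ‖x‖ = 1 → ‖P.eval (inner ℂ x ((V + α • star V) x))‖ ≤ M) :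
    ‖Polynomial.aeval (V + α • star V) P‖ ≤ Real.sqrt (1 + ‖α‖ ^ 2) * M := by
  have hM0 : 0 ≤ M := by
    obtain ⟨x, hx1, -⟩ := mem_numrange hV hns α 0 (by simp)
    exact le_trans (norm_nonneg _) (hM x hx1)
  obtain ⟨Γ, hΓ⟩ := exists_Gamma V hV α hα
  set U := block V (1 - V * star V) 0 (star V) with hU
  set X := col (-(α • (V * Γ))) with hX
  have hN : ‖Polynomial.aeval (U + α • star U) P‖ ≤ M :=
    norm_aeval_unitary_le U (U_unitary hV) α P M hM0 (boundary_bound hV hns α P M hM)
  have hint := aeval_intertwine (U + α • star U) (V + α • star V) X (intertwine hV hΓ) P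
  have hXlow : ∀ x, ‖x‖ ≤ ‖X x‖ := by
    intro x
    apply abs_le_of_sq_le_sq' _ (norm_nonneg _) |>.2
    rw [WithLp.prod_norm_sq_eq_of_L2, col_fst]
    have := sq_nonneg ‖(X x).snd‖
    linarith
  have hXup : ∀ x, ‖X x‖ ≤ Real.sqrt (1 + ‖α‖ ^ 2) * ‖x‖ := by
    intro x
    apply abs_le_of_sq_le_sq' _ (by positivity) |>.2
    rw [WithLp.prod_norm_sq_eq_of_L2, col_fst, col_snd, mul_pow, Real.sq_sqrt (by positivity)]
    have h1 : ‖(-(α • (V * Γ))) x‖ = ‖α‖ * ‖Γ x‖ := by
      rw [neg_apply, norm_neg, smul_apply, norm_smul,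
        mul_apply_eq_comp, norm_V_apply V hV]
    have h2 := Gamma_norm_le hV hα hΓ x
    rw [h1, mul_pow]
    have h3 : ‖Γ x‖ ^ 2 ≤ ‖x‖ ^ 2 := pow_le_pow_left₀ (norm_nonneg _) h2 2
    nlinarith [sq_nonneg ‖α‖]
  apply ContinuousLinearMap.opNorm_le_bound _ (by positivity)
  intro x
  calc ‖Polynomial.aeval (V + α • star V) P x‖ ≤ ‖X (Polynomial.aeval (V + α • star V) P x)‖ :=
        hXlow _
    _ = ‖Polynomial.aeval (U + α • star U) P (X x)‖ := by
        have := congrArg (fun T : H →L[ℂ] WithLp 2 (H × H) => T x) hint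
        simp only [ContinuousLinearMap.comp_apply] at this
        rw [this]
    _ ≤ ‖Polynomial.aeval (U + α • star U) P‖ * ‖X x‖ := ContinuousLinearMap.le_opNorm _ _
    _ ≤ M * (Real.sqrt (1 + ‖α‖ ^ 2) * ‖x‖) := by gcongr; exact hXup x
    _ = Real.sqrt (1 + ‖α‖ ^ 2) * M * ‖x‖ := by ring

end final

end Vale.Agent.Lib.P123
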